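import Vale.Agent.P113.Main

open Set

namespace Vale.Agent.Results.P113.Full

open Vale.Agent.P113

/-- Full positive answer to Q1: for every viscosity `ν > 0` there are a point `a` of the flat
torus, an open set `O` and a force compiler such that for every machine `M` and input `w` the
forced Navier-Stokes system from rest has a global smooth solution, unique among classical
solutions on each `[0,T]`, whose trajectory from `a` lies in `O` at some time `t ≥ 0` if and
only if `M` halts on `w`. -/
theorem result : ∀ ν : ℝ, 0 < ν →
    ∃ (a : T3) (O : Set T3) (compile : Description → Nat.Partrec.Code)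
      (f : (M : Machine) → Word M → VField) (T₀ : ℝ),
      IsOpen O ∧ IsForceCompiler compile f T₀ ∧
      ∀ (M : Machine) (w : Word M),
        ∃ (u : VField) (p : SField) (X : ℝ → R3),
          IsGlobalSmoothSolution ν (f M w) u p ∧
          (∀ T, 0 < T → ∀ (v : VField) (q : SField), IsClassicalSolution ν (f M w) T v q →
            ∀ t ∈ Icc 0 T, ∀ x, v t x = u t x ∧ q t x = p t x) ∧
          IsTrajectory u a X ∧
          (∀ Y, IsTrajectory u a Y → ∀ t, 0 ≤ t → toTorus (Y t) = toTorus (X t)) ∧
          ((∃ t, 0 ≤ t ∧ toTorus (X t) ∈ O) ↔ M.HaltsOn w) :=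
  fun ν hν => main ν hν

end Vale.Agent.Results.P113.Full
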